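import Mathlib.Combinatorics.SimpleGraph.Acyclic
import Mathlib.Data.Real.Basic
import Mathlib.Combinatorics.SimpleGraph.Coloring.VertexColoring

/-! Cuts, edge connectivity and thinness for simple graphs (a special case of multigraphs). -/

namespace Vale.Agent.P061

variable {V : Type} [Fintype V] [DecidableEq V]

open Classical in
/-- Number of edges of `G` with exactly one endpoint in `S`. -/
noncomputable def cutSize (G : SimpleGraph V) (S : Finset V) : ℕ :=
  ((S ×ˢ Sᶜ).filter fun p => G.Adj p.1 p.2).card

/-- Every nonempty proper cut has at least `k` edges. -/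
def KEdgeConnected (G : SimpleGraph V) (k : ℕ) : Prop :=
  ∀ S : Finset V, S.Nonempty → S ≠ Finset.univ → k ≤ cutSize G S

/-- A spanning tree `T` of `G` is `α`-thin. -/
def Thin (G T : SimpleGraph V) (α : ℝ) : Prop :=
  ∀ S : Finset V, S.Nonempty → S ≠ Finset.univ → (cutSize T S : ℝ) ≤ α * cutSize G S

end Vale.Agent.P061
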